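import Vale.Agent.P181.DG.Defs

set_option autoImplicit false

/-!
# P181, DU (helper317): the joint shift

All letters larger than `a` are lowered by `z` at once, the units are given to ONE small letter
`u`; the number of letters does not change. With this second operation the flow needs
`a + K + 2 ≤ b` only.
-/

open MvPolynomial

namespace Vale.Agent.P181.DU.S317

open Vale.Agent.P181.DG

/-- **(W4)** the joint shift: every letter of `Y` gives `z` units to the letter `u`. -/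
def ShiftT : Prop := ∀ (m S : ℕ) (mu : Fin m → ℕ) (Y rho : Multiset ℕ) (u z t : ℕ), 1 ≤ S →
  (∀ y ∈ Y, u + z * Multiset.card Y ≤ y ∧ y - z ∉ rho ∧ y - z ≠ u + z * Multiset.card Y) →
  u + z * Multiset.card Y ∉ rho →
  NT m S mu (u ::ₘ (Y + rho)) (t + 1) +
      NT m S mu ((u + z * Multiset.card Y) ::ₘ (Y.map (· - z) + rho)) t ≤
    NT m S mu (u ::ₘ (Y + rho)) t +
      NT m S mu ((u + z * Multiset.card Y) ::ₘ (Y.map (· - z) + rho)) (t + 1)

/-- The graded version, for an abstract function. -/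
def ShG (g : Multiset ℕ → ℕ → ℕ) : Prop := ∀ (Y rho : Multiset ℕ) (u z t : ℕ), 1 ≤ t →
  (∀ y ∈ Y, u + z * Multiset.card Y ≤ y ∧ y - z ∉ rho ∧ y - z ≠ u + z * Multiset.card Y) →
  u + z * Multiset.card Y ∉ rho →
  g (u ::ₘ (Y + rho)) t ≤ g ((u + z * Multiset.card Y) ::ₘ (Y.map (· - z) + rho)) t

/-- The bad states: a letter larger than `a`, all letters at most `b`, at least `J` and at most
`a` letters in all. -/
def BadW (a b J : ℕ) (p : Multiset ℕ × ℕ) : Prop :=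
  (∃ x ∈ p.1, a < x) ∧ (∀ x ∈ p.1, x ≤ b) ∧ J ≤ Multiset.card p.1 + p.2 ∧ 1 ≤ p.2 ∧
    Multiset.card p.1 + p.2 ≤ a

/-- The good states: sizes `≤ a`, more than `a` and at most `b` letters in all. -/
def GoodW (a b : ℕ) (p : Multiset ℕ × ℕ) : Prop :=
  (∀ x ∈ p.1, x ≤ a) ∧ a < Multiset.card p.1 + p.2 ∧ p.2 ≤ a + 1 ∧ Multiset.card p.1 + p.2 ≤ b

open scoped Classical in
/-- **(W7)** the flow. -/
def FlowW : Prop := ∀ (g : Multiset ℕ → ℕ → ℕ) (a b J S K X w : ℕ), DisG S g → ShG g → 2 ≤ K →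
  4 ≤ S → 4 * K ≤ X → w * X ^ 2 ≤ S ^ 2 → 4 * ((w + 1) * (a + 2) ^ 2) ≤ X ^ K →
  (2 * K + 3) * S ≤ J → J + 1 ≤ a → 16 * (w * X) ≤ a ^ 2 → a + K + 2 ≤ b →
  3 * ∑ p ∈ (KT w S ×ˢ Finset.range (a + 2)).filter (BadW a b J), g p.1 p.2 ≤
    ∑ p ∈ (KT w S ×ˢ Finset.range (a + 2)).filter (GoodW a b), g p.1 p.2

end Vale.Agent.P181.DU.S317
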