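import Vale.Agent.P181.DG.Defs2

set_option autoImplicit false

/-!
# P181, DU: line DG without the loss of columns, `b ≥ a + polylog a`

`LowU` replaces `DG.LowT`: no column is lost for a large letter.
-/

open MvPolynomial

namespace Vale.Agent.P181.DU

open Vale.Agent.P181.T4 (HW ex low)
open Vale.Agent.P181.H280 (plethMult)
open Vale.Agent.P181.H463 (gt)
open Vale.Agent.P181.SZ (TI)
open Vale.Agent.P181.PL (dn)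
open Vale.Agent.P181.DG

open scoped Classical in
/-- **(U3)** the lossless lower bound (replaces `LowT`). -/
def LowU : Prop := ∀ (a b m S : ℕ) (mu : Fin m → ℕ), 1 ≤ S → S ≤ a + 1 →
  2 * ∑ i, mu i ≤ b * (S - 1) →
  ∑ kap ∈ (KT (∑ i, mu i) S).filter (fun k => Multiset.card k ≤ b ∧ ∀ x ∈ k, x ≤ a),
      NT m S mu kap (b - Multiset.card kap) ≤ Module.finrank ℂ (TI b a m mu)

/-- The good states: `GoodT`, and at most `b` letters in all. -/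
def GoodU (a b : ℕ) (p : Multiset ℕ × ℕ) : Prop :=
  GoodT a p ∧ Multiset.card p.1 + p.2 ≤ b

open scoped Classical in
/-- **(U7)** the flow, as `FlowT`, with targets of at most `a + K + 2` letters. -/
def FlowU : Prop := ∀ (g : Multiset ℕ → ℕ → ℕ) (a b J S K X w : ℕ), DisG S g → 1 ≤ K → 4 ≤ S →
  4 * K ≤ X → w * X ^ 2 ≤ S ^ 2 → 4 * ((w + 1) * (a + 2)) ≤ X ^ K → (2 * K + 3) * S ≤ J →
  J + 1 ≤ a → a + K + 2 ≤ b →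
  3 * ∑ p ∈ (KT w S ×ˢ Finset.range (a + 2)).filter (BadT a J), g p.1 p.2 ≤
    ∑ p ∈ (KT w S ×ˢ Finset.range (a + 2)).filter (GoodU a b), g p.1 p.2

/-- **(U8)** the assembly: `DG.AsmR` with `a + 3 * K + 2 ≤ b` instead of `a + Z ≤ b`. -/
def AsmU : Prop := ∀ (a b n R X Z K w a0 b0 : ℕ) (lam nu : Fin n → ℕ), Antitone lam →
  ∑ i, lam i = a * b → ((∀ i, 0 < lam i) ∨ n ≤ Z * X ^ 2) → 1 ≤ R → R + 1 < n →
  w = dn lam 1 → Z ^ 2 ≤ w → w < (Z + 1) ^ 2 →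
  1 ≤ K → 16 * K + 16 ≤ X → X ≤ Z → 4 * w ≤ X ^ K → 100 * K * ((Z + 1) * X) ≤ a →
  a + 3 * K + 2 ≤ b → Z * X ^ 2 + 2 ≤ a → 1 ≤ a0 → a0 < a → a + a0 * (a0 + 2) ≤ w →
  3 * (b0 + 1) ≤ a →
  (∀ i : Fin n, 1 ≤ (i : ℕ) → nu i ≤ lam i) →
  (∀ i : Fin n, 1 ≤ (i : ℕ) → ex lam ((i : ℕ) + 1) ≤ nu i) → w = dn nu 1 + a →
  (n ≤ Z * X ^ 2 → 2 * ((w + 1) ^ ((R + 1) * (Z * X ^ 2)) *
    gt (n - R) (Z * X ^ 2 + 1) (low R nu)) ≤ plethMult b0 a0 n nu) →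
  plethMult a b n lam ≤ plethMult b a n lam

/-- The hypotheses: `DG.HyD` with `a + X ≤ b` instead of `dn lam 1 ≤ (b - a) ^ 2`. -/
def HyU (a b n X : ℕ) (lam : Fin n → ℕ) : Prop :=
  Antitone lam ∧ ∑ i, lam i = a * b ∧ (∀ i, 0 < lam i) ∧ n ≤ a ∧ a ≤ b ∧ b ≤ 5 * a ∧
    a + X ≤ b ∧ X ^ 20000 ≤ a ∧ 10 ^ 12 * (1 + Real.log a) ^ 7 ≤ X ∧
    dn lam 1 * X ^ 6000 ≤ dn lam 2 ^ 2 ∧ a < ex lam 1 ∧ 3 * a ≤ dn lam 1 ∧
    dn lam 1 * X ^ 13000 ≤ a ^ 2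

/-- `HyU`, and the tail behind row `R` is spread and heavy. -/
def HyUR (a b n X R : ℕ) (lam : Fin n → ℕ) : Prop :=
  HyU a b n X lam ∧ 3 ≤ R ∧ R < n ∧ R ≤ X ^ 14 ∧ X ^ 13 * ex lam R ≤ dn lam R ∧
    dn lam 2 ≤ X ^ 2600 * dn lam R

/-- From `LBL` and `AsmU`, as `DG.Heavy3D`. -/
def Heavy3U : Prop := ∀ (a b n X R : ℕ) (lam : Fin n → ℕ), HyUR a b n X R lam →
  X ^ 2 * dn lam 2 ≤ dn lam 1 → plethMult a b n lam ≤ plethMult b a n lam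

/-- From `LBI` and `AsmU`, as `DG.Heavy4D`. -/
def Heavy4U : Prop := ∀ (a b n X R : ℕ) (lam : Fin n → ℕ), HyUR a b n X R lam →
  dn lam 1 < X ^ 2 * dn lam 2 → plethMult a b n lam ≤ plethMult b a n lam

/-- The tail behind row `R` is light, as `DG.LightD`. -/
def LightU : Prop := ∀ (a b n X R : ℕ) (lam : Fin n → ℕ), HyU a b n X lam → 3 ≤ R →
  R ≤ X ^ 14 → X ^ 2550 * dn lam R ≤ ex lam 2 → plethMult a b n lam ≤ plethMult b a n lam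

/-- **(U9)** the theorem: every `b ≥ a + C (1 + log a) ^ c`. -/
def DiagU : Prop := ∃ (C : ℝ) (c : ℕ), 0 < C ∧ ∀ a b : ℕ,
  (a : ℝ) + C * (1 + Real.log a) ^ c ≤ b →
  ∀ (n : ℕ) (lam : Fin n → ℕ), Antitone lam → 3 * a ≤ dn lam 1 →
  C * (1 + Real.log a) ^ c * (dn lam 1 : ℝ) ≤ (a : ℝ) ^ 2 →
  (C * (1 + Real.log a) ^ c * (dn lam 1 : ℝ) ≤ (dn lam 2 : ℝ) ^ 2 ∨
    a + dn lam 2 ≤ b + 1) →
  plethMult a b n lam ≤ plethMult b a n lam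

end Vale.Agent.P181.DU
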