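import Vale.Agent.P181.DU.Defs

set_option autoImplicit false

/-!
# P181, DU: the corrected flow, and the literals of version V

`DU.FlowU` is false as it stands (no bound on the number of letters of the bad states), and
`a + K + 2 ≤ b` is not enough when several letters are larger than `a`. `FlowV` replaces it; the
condition on `b` becomes `polylog * w ≤ a * (b - a)`.
-/

open MvPolynomial

namespace Vale.Agent.P181.DU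

open Vale.Agent.P181.T4 (HW ex low)
open Vale.Agent.P181.H280 (plethMult)
open Vale.Agent.P181.H463 (gt)
open Vale.Agent.P181.SZ (TI)
open Vale.Agent.P181.PL (dn)
open Vale.Agent.P181.DG

/-- The bad states: a letter larger than `a`, at least `J` and at most `a` letters in all. -/
def BadU (a J : ℕ) (p : Multiset ℕ × ℕ) : Prop :=
  (∃ x ∈ p.1, a < x) ∧ J ≤ Multiset.card p.1 + p.2 ∧ 1 ≤ p.2 ∧ Multiset.card p.1 + p.2 ≤ a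

/-- The good states: sizes `≤ a`, more than `a` and at most `b` letters in all. -/
def GoodV (a b : ℕ) (p : Multiset ℕ × ℕ) : Prop :=
  (∀ x ∈ p.1, x ≤ a) ∧ a < Multiset.card p.1 + p.2 ∧ p.2 ≤ a + 1 ∧ Multiset.card p.1 + p.2 ≤ b

open scoped Classical in
/-- **(V7)** the flow: pure counting from `DisG`. -/
def FlowV : Prop := ∀ (g : Multiset ℕ → ℕ → ℕ) (a b J S K X w : ℕ), DisG S g → 2 ≤ K → 4 ≤ S →
  4 * K ≤ X → w * X ^ 2 ≤ S ^ 2 → 4 * ((w + 1) * ((w + 2) * (a + 2))) ≤ X ^ K →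
  (6 * K + 9) * S ≤ J → J + 1 ≤ a → a * a + 2 * (K + 1) * w ≤ a * b →
  3 * ∑ p ∈ (KT w S ×ˢ Finset.range (a + 2)).filter (BadU a J), g p.1 p.2 ≤
    ∑ p ∈ (KT w S ×ˢ Finset.range (a + 2)).filter (GoodV a b), g p.1 p.2

/-- **(V8)** the assembly: `DG.AsmR` with `a * a + (6 * K + 2) * w ≤ a * b` instead of
`a + Z ≤ b` and `128 * K + 128 ≤ X` instead of `16 * K + 16 ≤ X`. -/
def AsmV : Prop := ∀ (a b n R X Z K w a0 b0 : ℕ) (lam nu : Fin n → ℕ), Antitone lam →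
  ∑ i, lam i = a * b → ((∀ i, 0 < lam i) ∨ n ≤ Z * X ^ 2) → 1 ≤ R → R + 1 < n →
  w = dn lam 1 → Z ^ 2 ≤ w → w < (Z + 1) ^ 2 →
  1 ≤ K → 128 * K + 128 ≤ X → X ≤ Z → 4 * w ≤ X ^ K → 100 * K * ((Z + 1) * X) ≤ a →
  a * a + (6 * K + 2) * w ≤ a * b → Z * X ^ 2 + 2 ≤ a → 1 ≤ a0 → a0 < a →
  a + a0 * (a0 + 2) ≤ w → 3 * (b0 + 1) ≤ a →
  (∀ i : Fin n, 1 ≤ (i : ℕ) → nu i ≤ lam i) →
  (∀ i : Fin n, 1 ≤ (i : ℕ) → ex lam ((i : ℕ) + 1) ≤ nu i) → w = dn nu 1 + a →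
  (n ≤ Z * X ^ 2 → 2 * ((w + 1) ^ ((R + 1) * (Z * X ^ 2)) *
    gt (n - R) (Z * X ^ 2 + 1) (low R nu)) ≤ plethMult b0 a0 n nu) →
  plethMult a b n lam ≤ plethMult b a n lam

/-- The hypotheses: `DG.E924.HyE` with `a * a + X * dn lam 1 ≤ a * b` instead of
`dn lam 1 ≤ (b - a) ^ 2`. -/
def HyV (a b n X : ℕ) (lam : Fin n → ℕ) : Prop :=
  Antitone lam ∧ ∑ i, lam i = a * b ∧ (∀ i, 0 < lam i) ∧ n ≤ a ∧ a ≤ b ∧ b ≤ 5 * a ∧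
    a * a + X * dn lam 1 ≤ a * b ∧ X ^ 20000 ≤ a ∧ 10 ^ 12 * (1 + Real.log a) ^ 7 ≤ X ∧
    dn lam 1 * X ^ 6000 ≤ dn lam 2 ^ 2 ∧ a < ex lam 1 ∧ (2 * X + 1) * a ≤ X * dn lam 1 ∧
    dn lam 1 * X ^ 13000 ≤ a ^ 2

/-- **(V9)** the theorem. -/
def DiagV : Prop := ∃ (C : ℝ) (c : ℕ), 0 < C ∧ ∀ a b : ℕ, a ≤ b →
  ∀ (n : ℕ) (lam : Fin n → ℕ),
  (dn lam 1 ≤ b ∨ 2 * (a : ℝ) + a / (1 + Real.log a) ^ 7 ≤ dn lam 1) →
  C * (1 + Real.log a) ^ c * (dn lam 1 : ℝ) ≤ (a : ℝ) * ((b : ℝ) - a) →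
  C * (1 + Real.log a) ^ c * (dn lam 1 : ℝ) ≤ (a : ℝ) ^ 2 →
  (C * (1 + Real.log a) ^ c * (dn lam 1 : ℝ) ≤ (dn lam 2 : ℝ) ^ 2 ∨ a + dn lam 2 ≤ b + 1) →
  plethMult a b n lam ≤ plethMult b a n lam

end Vale.Agent.P181.DU
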