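import Vale.Agent.P181.DU.Shift

set_option autoImplicit false

/-!
# P181, DO (helper244): the flow for all `b ≥ a + 1`

`FlowO` is `FlowW` for `a < b ≤ a + X`: all letters are at most `b`, so ONE joint shift by `b - a`
brings all letters below `a + 1`; the targets have exactly `a + 1` letters. `FlowA` is the union.
-/

namespace Vale.Agent.P181.DU.O244

open Vale.Agent.P181.DG
open Vale.Agent.P181.DU.S317

open scoped Classical in
/-- **(O7)** the flow for `a < b ≤ a + X`. -/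
def FlowO : Prop := ∀ (g : Multiset ℕ → ℕ → ℕ) (a b J S K X w : ℕ), DisG S g → ShG g → 2 ≤ K →
  4 ≤ S → 32 * K ≤ X → w * X ^ 2 ≤ S ^ 2 → 4 * ((w + 1) * (a + 2) ^ 2) ≤ X ^ K →
  (2 * K + 3) * S ≤ J → J + 1 ≤ a → S * X ≤ 2 * a → a + 1 ≤ b → b ≤ a + X →
  3 * ∑ p ∈ (KT w S ×ˢ Finset.range (a + 2)).filter (BadW a b J), g p.1 p.2 ≤
    ∑ p ∈ (KT w S ×ˢ Finset.range (a + 2)).filter (GoodW a b), g p.1 p.2

open scoped Classical in
/-- **(O8)** the flow for all `b ≥ a + 1`. -/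
def FlowA : Prop := ∀ (g : Multiset ℕ → ℕ → ℕ) (a b J S K X w : ℕ), DisG S g → ShG g → 2 ≤ K →
  4 ≤ S → 32 * K ≤ X → w * X ^ 2 ≤ S ^ 2 → 4 * ((w + 1) * (a + 2) ^ 2) ≤ X ^ K →
  (2 * K + 3) * S ≤ J → J + 1 ≤ a → S * X ≤ 2 * a → a + 1 ≤ b →
  3 * ∑ p ∈ (KT w S ×ˢ Finset.range (a + 2)).filter (BadW a b J), g p.1 p.2 ≤
    ∑ p ∈ (KT w S ×ˢ Finset.range (a + 2)).filter (GoodW a b), g p.1 p.2

/-- The union of the two flows. -/
theorem flowA_of (hW : FlowW) (hO : FlowO) : FlowA := by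
  intro g a b J S K X w hg hs hK hS hX hw hwX hJ hJa hSX hb
  rcases Nat.lt_or_ge (a + X) b with h | h
  · refine hW g a b J S K X w hg hs hK hS (by omega) hw hwX hJ hJa ?_ (by omega)
    have h1 : (w * X ^ 2) * X ^ 2 ≤ (2 * a) ^ 2 := by
      calc (w * X ^ 2) * X ^ 2 ≤ S ^ 2 * X ^ 2 := Nat.mul_le_mul_right _ hw
        _ = (S * X) ^ 2 := by ring
        _ ≤ (2 * a) ^ 2 := Nat.pow_le_pow_left hSX 2
    have h2 : 64 * (w * X) ≤ (w * X ^ 2) * X ^ 2 := by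
      have h3 : 64 ≤ X := by omega
      calc 64 * (w * X) ≤ X * (w * X) := Nat.mul_le_mul_right _ h3
        _ = w * X ^ 2 * 1 := by ring
        _ ≤ w * X ^ 2 * X ^ 2 := Nat.mul_le_mul_left _ (Nat.one_le_pow _ _ (by omega))
    have h4 : (2 * a) ^ 2 = 4 * a ^ 2 := by ring
    omega
  · exact hO g a b J S K X w hg hs hK hS hX hw hwX hJ hJa hSX hb h

end Vale.Agent.P181.DU.O244
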